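import Vale.Agent.Lib.P069.Defs

namespace Vale.Agent.Lib.P069

/-- the modulus of asymptotic uniform convexity of `N` at `t`, literally as an
inf-sup-inf with values in the extended reals (an infimum over the empty set is `⊤`) -/
noncomputable def deltaBar {X : Type*} [NormedAddCommGroup X] [NormedSpace ℝ X] (N : X → ℝ)
    (t : ℝ) : EReal :=
  ⨅ x : {x : X // N x = 1},
    ⨆ F : {F : Submodule ℝ X // IsClosed (F : Set X) ∧ FiniteDimensional ℝ (X ⧸ F)},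
      ⨅ y : {y : X // y ∈ F.1 ∧ N y = 1}, ((N (x.1 + t • y.1) - 1 : ℝ) : EReal)

/-- the modulus of asymptotic midpoint uniform convexity of `N` at `t` -/
noncomputable def midBar {X : Type*} [NormedAddCommGroup X] [NormedSpace ℝ X] (N : X → ℝ)
    (t : ℝ) : EReal :=
  ⨅ x : {x : X // N x = 1},
    ⨆ F : {F : Submodule ℝ X // IsClosed (F : Set X) ∧ FiniteDimensional ℝ (X ⧸ F)},
      ⨅ y : {y : X // y ∈ F.1 ∧ N y = 1},
        ((max (N (x.1 + t • y.1)) (N (x.1 - t • y.1)) - 1 : ℝ) : EReal)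

theorem isAUC_iff_deltaBar {X : Type*} [NormedAddCommGroup X] [NormedSpace ℝ X] (N : X → ℝ) :
    IsAUC N ↔ ∀ t : ℝ, 0 < t → 0 < deltaBar N t := by
  constructor
  · intro h t ht
    obtain ⟨δ, hδ, hprop⟩ := h t ht
    have h1 : ((δ : ℝ) : EReal) ≤ deltaBar N t := by
      unfold deltaBar
      refine le_iInf fun x => ?_
      obtain ⟨F, hFc, hFd, hF⟩ := hprop x.1 x.2
      refine le_iSup_of_le ⟨F, hFc, hFd⟩ (le_iInf fun y => ?_)
      have := hF y.1 y.2.1 y.2.2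
      exact EReal.coe_le_coe_iff.2 (by linarith)
    have h0 : (0 : EReal) < ((δ : ℝ) : EReal) := by exact_mod_cast hδ
    exact lt_of_lt_of_le h0 h1
  · intro h t ht
    obtain ⟨δ, hδ0, hδ⟩ := EReal.lt_iff_exists_real_btwn.1 (h t ht)
    refine ⟨δ, by exact_mod_cast hδ0, fun x hx => ?_⟩
    have h1 : ((δ : ℝ) : EReal) <
        ⨆ F : {F : Submodule ℝ X // IsClosed (F : Set X) ∧ FiniteDimensional ℝ (X ⧸ F)},
          ⨅ y : {y : X // y ∈ F.1 ∧ N y = 1}, ((N (x + t • y.1) - 1 : ℝ) : EReal) :=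
      lt_of_lt_of_le hδ (iInf_le _ (⟨x, hx⟩ : {x : X // N x = 1}))
    obtain ⟨F, hF⟩ := lt_iSup_iff.1 h1
    refine ⟨F.1, F.2.1, F.2.2, fun y hy hNy => ?_⟩
    have h2 : ((δ : ℝ) : EReal) < ((N (x + t • y) - 1 : ℝ) : EReal) :=
      lt_of_lt_of_le hF (iInf_le _ (⟨y, hy, hNy⟩ : {y : X // y ∈ F.1 ∧ N y = 1}))
    have h3 : δ < N (x + t • y) - 1 := EReal.coe_lt_coe_iff.1 h2
    linarith

theorem isAMUC_iff_midBar {X : Type*} [NormedAddCommGroup X] [NormedSpace ℝ X] (N : X → ℝ) :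
    IsAMUC N ↔ ∀ t : ℝ, 0 < t → 0 < midBar N t := by
  constructor
  · intro h t ht
    obtain ⟨δ, hδ, hprop⟩ := h t ht
    have h1 : ((δ : ℝ) : EReal) ≤ midBar N t := by
      unfold midBar
      refine le_iInf fun x => ?_
      obtain ⟨F, hFc, hFd, hF⟩ := hprop x.1 x.2
      refine le_iSup_of_le ⟨F, hFc, hFd⟩ (le_iInf fun y => ?_)
      have := hF y.1 y.2.1 y.2.2
      exact EReal.coe_le_coe_iff.2 (by linarith)
    have h0 : (0 : EReal) < ((δ : ℝ) : EReal) := by exact_mod_cast hδ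
    exact lt_of_lt_of_le h0 h1
  · intro h t ht
    obtain ⟨δ, hδ0, hδ⟩ := EReal.lt_iff_exists_real_btwn.1 (h t ht)
    refine ⟨δ, by exact_mod_cast hδ0, fun x hx => ?_⟩
    have h1 : ((δ : ℝ) : EReal) <
        ⨆ F : {F : Submodule ℝ X // IsClosed (F : Set X) ∧ FiniteDimensional ℝ (X ⧸ F)},
          ⨅ y : {y : X // y ∈ F.1 ∧ N y = 1},
            ((max (N (x + t • y.1)) (N (x - t • y.1)) - 1 : ℝ) : EReal) :=
      lt_of_lt_of_le hδ (iInf_le _ (⟨x, hx⟩ : {x : X // N x = 1}))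
    obtain ⟨F, hF⟩ := lt_iSup_iff.1 h1
    refine ⟨F.1, F.2.1, F.2.2, fun y hy hNy => ?_⟩
    have h2 : ((δ : ℝ) : EReal) < ((max (N (x + t • y)) (N (x - t • y)) - 1 : ℝ) : EReal) :=
      lt_of_lt_of_le hF (iInf_le _ (⟨y, hy, hNy⟩ : {y : X // y ∈ F.1 ∧ N y = 1}))
    have h3 : δ < max (N (x + t • y)) (N (x - t • y)) - 1 := EReal.coe_lt_coe_iff.1 h2
    linarith

end Vale.Agent.Lib.P069
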